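import Vale.Agent.P122.AN.Defs
import Vale.Agent.P122.FI.Pl

/-! # P122 / AN-122 : volume of a cell, count of the cells in a plank, Katz-Tao constant of bounded pieces -/

open MeasureTheory Complex Set Vale.Agent.P122.C2 Vale.Agent.P122.AN
open scoped ENNReal NNReal FourierTransform

set_option linter.all false

namespace Vale.Agent.P122.J342

/-! ## volumes -/

theorem pi_shear (c0 c1 : ℝ) (p0 p1 p2 a b : ℝ) (ha : 0 ≤ a) (hb : 0 ≤ b) :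
    volume {x : Fin 3 → ℝ | |x 0 - p0| ≤ a ∧ |x 1 - p1| ≤ a ∧ |x 2 + c0 * x 0 + c1 * x 1 - p2| ≤ b} =
      ENNReal.ofReal (8 * a ^ 2 * b) := by
  set M : Matrix (Fin 3) (Fin 3) ℝ := !![1, 0, 0; 0, 1, 0; c0, c1, 1] with hM
  have hdet : M.det = 1 := by
    rw [hM, Matrix.det_fin_three]
    simp
  have hmap := Real.map_matrix_volume_pi_eq_smul_volume_pi (M := M) (by rw [hdet]; norm_num)
  rw [hdet, inv_one, abs_one, ENNReal.ofReal_one, one_smul] at hmap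
  set Bx : Set (Fin 3 → ℝ) := Icc ![p0 - a, p1 - a, p2 - b] ![p0 + a, p1 + a, p2 + b] with hBx
  have hBm : MeasurableSet Bx := measurableSet_Icc
  have hcont : Measurable (Matrix.toLin' M) := (LinearMap.continuous_of_finiteDimensional _).measurable
  have hpre : {x : Fin 3 → ℝ | |x 0 - p0| ≤ a ∧ |x 1 - p1| ≤ a ∧ |x 2 + c0 * x 0 + c1 * x 1 - p2| ≤ b} =
      (Matrix.toLin' M) ⁻¹' Bx := by
    ext x
    simp only [mem_setOf_eq, mem_preimage, hBx, mem_Icc, Pi.le_def, Fin.forall_fin_succ, Matrix.toLin'_apply, hM]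
    simp [Matrix.mulVec, dotProduct, Fin.sum_univ_three, abs_le]
    constructor
    · rintro ⟨⟨h1, h2⟩, ⟨h3, h4⟩, ⟨h5, h6⟩⟩
      refine ⟨⟨?_, ?_, ?_⟩, ?_, ?_, ?_⟩ <;> linarith
    · rintro ⟨⟨h1, h2, h3⟩, h4, h5, h6⟩
      refine ⟨⟨?_, ?_⟩, ⟨?_, ?_⟩, ?_, ?_⟩ <;> linarith
  rw [hpre, ← Measure.map_apply hcont hBm, hmap, hBx, Real.volume_Icc_pi]
  simp only [Fin.prod_univ_three]
  simp
  rw [← ENNReal.ofReal_mul (by linarith), ← ENNReal.ofReal_mul (by positivity)]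
  congr 1
  ring

theorem vol_shear (c0 c1 : ℝ) (p0 p1 p2 a b : ℝ) (ha : 0 ≤ a) (hb : 0 ≤ b) :
    volume {x : AN.E3 | |x 0 - p0| ≤ a ∧ |x 1 - p1| ≤ a ∧ |x 2 + c0 * x 0 + c1 * x 1 - p2| ≤ b} =
      ENNReal.ofReal (8 * a ^ 2 * b) := by
  rw [← pi_shear c0 c1 p0 p1 p2 a b ha hb]
  have h := (EuclideanSpace.volume_preserving_symm_measurableEquiv_toLp (Fin 3))
  have hm : MeasurableSet {x : Fin 3 → ℝ | |x 0 - p0| ≤ a ∧ |x 1 - p1| ≤ a ∧ |x 2 + c0 * x 0 + c1 * x 1 - p2| ≤ b} := by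
    have k1 : MeasurableSet {x : Fin 3 → ℝ | |x 0 - p0| ≤ a} :=
      (isClosed_le (f := fun x : Fin 3 → ℝ => |x 0 - p0|) (by fun_prop) continuous_const).measurableSet
    have k2 : MeasurableSet {x : Fin 3 → ℝ | |x 1 - p1| ≤ a} :=
      (isClosed_le (f := fun x : Fin 3 → ℝ => |x 1 - p1|) (by fun_prop) continuous_const).measurableSet
    have k3 : MeasurableSet {x : Fin 3 → ℝ | |x 2 + c0 * x 0 + c1 * x 1 - p2| ≤ b} :=
      (isClosed_le (f := fun x : Fin 3 → ℝ => |x 2 + c0 * x 0 + c1 * x 1 - p2|) (by fun_prop) continuous_const).measurableSet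
    exact k1.inter (k2.inter k3)
  rw [← h.measure_preimage hm.nullMeasurableSet]
  rfl

/-- volume of one cell -/
theorem cell_vol : ∀ C0 : ℝ, 1 ≤ C0 → ∃ C : ℝ, 1 ≤ C ∧ ∀ (Q : Set (Fin 2 → ℝ)) (h : (Fin 2 → ℝ) → ℝ)
    (v : (Fin 2 → ℝ) → Fin 2 → ℝ), Srf C0 Q h v → ∀ (N : ℝ) (w : Fin 2 → ℝ), 0 < N →
    volume {ξ : AN.E3 | hz ξ ∈ Q ∧ |ξ 2 - h (hz ξ)| ≤ C0 / N ^ 2 ∧ ∀ k, |v (hz ξ) k - w k| ≤ C0 / N} ≤
      ENNReal.ofReal (C / N ^ 4) := by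
  intro C0 hC0
  set a : ℝ := 2 * C0 ^ 2 with ha
  set b : ℝ := C0 + C0 * a ^ 2 with hb
  have ha1 : 1 ≤ a := by
    rw [ha]
    nlinarith
  have hb1 : 1 ≤ b := by
    rw [hb]
    have : 0 ≤ C0 * a ^ 2 := by positivity
    linarith
  refine ⟨8 * a ^ 2 * b, ?_, ?_⟩
  · have h1 : 1 ≤ a ^ 2 := one_le_pow₀ ha1
    have h2 : 1 ≤ a ^ 2 * b := one_le_mul_of_one_le_of_one_le h1 hb1
    linarith
  intro Q h v hS N w hN
  by_cases hne : ({ξ : AN.E3 | hz ξ ∈ Q ∧ |ξ 2 - h (hz ξ)| ≤ C0 / N ^ 2 ∧ ∀ k, |v (hz ξ) k - w k| ≤ C0 / N}).Nonempty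
  swap
  · rw [not_nonempty_iff_eq_empty.1 hne, measure_empty]
    exact zero_le
  obtain ⟨ξ0, hQ0, h20, hv0⟩ := hne
  set η : Fin 2 → ℝ := hz ξ0 with hη
  have hsub : {ξ : AN.E3 | hz ξ ∈ Q ∧ |ξ 2 - h (hz ξ)| ≤ C0 / N ^ 2 ∧ ∀ k, |v (hz ξ) k - w k| ≤ C0 / N} ⊆
      {x : AN.E3 | |x 0 - η 0| ≤ a / N ∧ |x 1 - η 1| ≤ a / N ∧
        |x 2 + v η 0 * x 0 + v η 1 * x 1 - (h η + v η 0 * η 0 + v η 1 * η 1)| ≤ b / N ^ 2} := by
    rintro ξ ⟨hQ, h2, hv⟩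
    have hd : ‖v (hz ξ) - v η‖ ≤ 2 * C0 / N := by
      rw [pi_norm_le_iff_of_nonneg (by positivity)]
      intro k
      rw [Pi.sub_apply, Real.norm_eq_abs]
      calc |v (hz ξ) k - v η k| = |(v (hz ξ) k - w k) - (v η k - w k)| := by ring_nf
        _ ≤ |v (hz ξ) k - w k| + |v η k - w k| := abs_sub _ _
        _ ≤ C0 / N + C0 / N := add_le_add (hv k) (hv0 k)
        _ = 2 * C0 / N := by ring
    have hdist : ‖hz ξ - η‖ ≤ a / N := by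
      calc ‖hz ξ - η‖ ≤ C0 * ‖v (hz ξ) - v η‖ := hS.lo _ hQ _ hQ0
        _ ≤ C0 * (2 * C0 / N) := by gcongr
        _ = a / N := by rw [ha]; ring
    have hk : ∀ k, |hz ξ k - η k| ≤ a / N := by
      intro k
      have := (pi_norm_le_iff_of_nonneg (by positivity)).1 hdist k
      simpa [Real.norm_eq_abs] using this
    have ht := hS.tay _ hQ _ hQ0
    have e0 : hz ξ 0 = ξ 0 := rfl
    have e1 : hz ξ 1 = ξ 1 := rfl
    refine ⟨by rw [← e0]; exact hk 0, by rw [← e1]; exact hk 1, ?_⟩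
    have hsq : C0 * ‖hz ξ - η‖ ^ 2 ≤ C0 * (a / N) ^ 2 := by gcongr
    calc |ξ 2 + v η 0 * ξ 0 + v η 1 * ξ 1 - (h η + v η 0 * η 0 + v η 1 * η 1)|
        = |(ξ 2 - h (hz ξ)) + (h (hz ξ) - h η + v η 0 * (hz ξ 0 - η 0) + v η 1 * (hz ξ 1 - η 1))| := by
          rw [e0, e1]
          ring_nf
      _ ≤ |ξ 2 - h (hz ξ)| + |h (hz ξ) - h η + v η 0 * (hz ξ 0 - η 0) + v η 1 * (hz ξ 1 - η 1)| := abs_add_le _ _
      _ ≤ C0 / N ^ 2 + C0 * (a / N) ^ 2 := add_le_add h2 (ht.trans hsq)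
      _ = b / N ^ 2 := by
          rw [hb]
          field_simp
  refine (measure_mono hsub).trans ?_
  rw [vol_shear _ _ _ _ _ _ _ (by positivity) (by positivity)]
  apply ENNReal.ofReal_le_ofReal
  apply le_of_eq
  field_simp

/-! ## the count of the cells in a plank -/

theorem vol_rot (θ A B p0 p1 : ℝ) (hA : 0 ≤ A) (hB : 0 ≤ B) :
    volume {x : Fin 2 → ℝ | |fw θ x - p0| ≤ A ∧ |fn θ x - p1| ≤ B} = ENNReal.ofReal (4 * A * B) := by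
  set M : Matrix (Fin 2) (Fin 2) ℝ := !![Real.cos θ, Real.sin θ; -Real.sin θ, Real.cos θ] with hM
  have hdet : M.det = 1 := by
    rw [hM, Matrix.det_fin_two_of]
    nlinarith [Real.sin_sq_add_cos_sq θ]
  have hmap := Real.map_matrix_volume_pi_eq_smul_volume_pi (M := M) (by rw [hdet]; norm_num)
  rw [hdet, inv_one, abs_one, ENNReal.ofReal_one, one_smul] at hmap
  set Bx : Set (Fin 2 → ℝ) := Icc ![p0 - A, p1 - B] ![p0 + A, p1 + B] with hBx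
  have hBm : MeasurableSet Bx := measurableSet_Icc
  have hcont : Measurable (Matrix.toLin' M) := (LinearMap.continuous_of_finiteDimensional _).measurable
  have hpre : {x : Fin 2 → ℝ | |fw θ x - p0| ≤ A ∧ |fn θ x - p1| ≤ B} = (Matrix.toLin' M) ⁻¹' Bx := by
    ext x
    simp only [mem_setOf_eq, mem_preimage, hBx, mem_Icc, Pi.le_def, Fin.forall_fin_two, Matrix.toLin'_apply, hM, fw, fn]
    simp [Matrix.mulVec, dotProduct, Fin.sum_univ_two, abs_le]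
    constructor
    · rintro ⟨⟨h1, h2⟩, h3, h4⟩
      refine ⟨⟨?_, ?_⟩, ?_, ?_⟩ <;> linarith
    · rintro ⟨⟨h1, h2⟩, h3, h4⟩
      refine ⟨⟨?_, ?_⟩, ?_, ?_⟩ <;> linarith
  rw [hpre, ← Measure.map_apply hcont hBm, hmap, hBx, Real.volume_Icc_pi]
  simp only [Fin.prod_univ_two]
  simp
  rw [← ENNReal.ofReal_mul (by linarith)]
  congr 1
  ring

/-- the unit square at `τ` -/
def uq (τ : Z2) : Set (Fin 2 → ℝ) := Set.pi univ fun k => Ico (τ k : ℝ) (τ k + 1)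

theorem measurableSet_uq (τ : Z2) : MeasurableSet (uq τ) := MeasurableSet.univ_pi fun k => measurableSet_Ico

theorem volume_uq (τ : Z2) : volume (uq τ) = 1 := by
  unfold uq
  rw [Real.volume_pi_Ico]
  simp

theorem uq_disj {τ τ' : Z2} (h : τ ≠ τ') : Disjoint (uq τ) (uq τ') := by
  rw [Set.disjoint_left]
  intro x hx hx'
  apply h
  funext k
  have h1 := hx k (mem_univ k)
  have h2 := hx' k (mem_univ k)
  have e1 : ⌊x k⌋ = τ k := Int.floor_eq_iff.2 ⟨h1.1, h1.2⟩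
  have e2 : ⌊x k⌋ = τ' k := Int.floor_eq_iff.2 ⟨h2.1, h2.2⟩
  rw [← e1, e2]

theorem fw_abs (θ : ℝ) (x : Fin 2 → ℝ) : |fw θ x| ≤ |x 0| + |x 1| := by
  unfold fw
  refine (abs_add_le _ _).trans ?_
  rw [abs_mul, abs_mul]
  have h1 := Real.abs_cos_le_one θ
  have h2 := Real.abs_sin_le_one θ
  have h3 := abs_nonneg (x 0)
  have h4 := abs_nonneg (x 1)
  nlinarith

theorem fn_abs (θ : ℝ) (x : Fin 2 → ℝ) : |fn θ x| ≤ |x 0| + |x 1| := by
  unfold fn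
  refine (abs_add_le _ _).trans ?_
  rw [abs_mul, abs_mul, abs_neg]
  have h1 := Real.abs_cos_le_one θ
  have h2 := Real.abs_sin_le_one θ
  have h3 := abs_nonneg (x 0)
  have h4 := abs_nonneg (x 1)
  nlinarith

/-- number of the cells of side `1 / N` in a plank of widths `u2 ≥ u1 ≥ 1 / N` -/
theorem count (N θ u1 u2 : ℝ) (s : Fin 2 → ℝ) (U : Finset Z2) (hN : 0 < N) (h1 : 1 / N ≤ u1) (h2 : u1 ≤ u2)
    (hU : ∀ τ ∈ U, |fw θ (fun i => (τ i : ℝ) / N - s i)| ≤ u2 ∧ |fn θ (fun i => (τ i : ℝ) / N - s i)| ≤ u1) :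
    (U.card : ℝ) ≤ 36 * (u1 * u2 * N ^ 2) := by
  have hu1 : 0 < u1 := lt_of_lt_of_le (by positivity) h1
  have hu2 : 0 < u2 := hu1.trans_le h2
  have hN1 : 1 ≤ N * u1 := by
    rw [div_le_iff₀ hN] at h1
    linarith
  have hN2 : 1 ≤ N * u2 := hN1.trans (by gcongr)
  have hsub : (⋃ τ ∈ U, uq τ) ⊆ {x : Fin 2 → ℝ | |fw θ x - fw θ (fun i => N * s i)| ≤ 3 * (N * u2) ∧
      |fn θ x - fn θ (fun i => N * s i)| ≤ 3 * (N * u1)} := by
    intro x hx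
    simp only [mem_iUnion, exists_prop] at hx
    obtain ⟨τ, hτ, hx⟩ := hx
    obtain ⟨g1, g2⟩ := hU τ hτ
    have hd : ∀ k, |x k - τ k| ≤ 1 := by
      intro k
      have h3 := hx k (mem_univ k)
      rw [abs_le]
      constructor <;> linarith [h3.1, h3.2]
    have e1 : fw θ x - fw θ (fun i => N * s i) = fw θ (fun i => x i - τ i) + N * fw θ (fun i => (τ i : ℝ) / N - s i) := by
      unfold fw
      field_simp
      ring
    have e2 : fn θ x - fn θ (fun i => N * s i) = fn θ (fun i => x i - τ i) + N * fn θ (fun i => (τ i : ℝ) / N - s i) := by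
      unfold fn
      field_simp
      ring
    constructor
    · show |fw θ x - fw θ (fun i => N * s i)| ≤ 3 * (N * u2)
      rw [e1]
      refine (abs_add_le _ _).trans ?_
      rw [abs_mul, abs_of_pos hN]
      have h4 := fw_abs θ (fun i => x i - τ i)
      have h5 := hd 0
      have h6 := hd 1
      have h7 : N * |fw θ (fun i => (τ i : ℝ) / N - s i)| ≤ N * u2 := by gcongr
      linarith
    · show |fn θ x - fn θ (fun i => N * s i)| ≤ 3 * (N * u1)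
      rw [e2]
      refine (abs_add_le _ _).trans ?_
      rw [abs_mul, abs_of_pos hN]
      have h4 := fn_abs θ (fun i => x i - τ i)
      have h5 := hd 0
      have h6 := hd 1
      have h7 : N * |fn θ (fun i => (τ i : ℝ) / N - s i)| ≤ N * u1 := by gcongr
      linarith
  have hvol : volume (⋃ τ ∈ U, uq τ) = (U.card : ℝ≥0∞) := by
    rw [measure_biUnion_finset (fun τ _ τ' _ h => uq_disj h) (fun τ _ => measurableSet_uq τ)]
    simp [volume_uq]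
  have hle := measure_mono (μ := volume) hsub
  rw [hvol, vol_rot θ _ _ _ _ (by positivity) (by positivity)] at hle
  have h8 : (U.card : ℝ≥0∞) = ENNReal.ofReal (U.card : ℝ) := by simp
  rw [h8, ENNReal.ofReal_le_ofReal_iff (by positivity)] at hle
  calc (U.card : ℝ) ≤ 4 * (3 * (N * u2)) * (3 * (N * u1)) := hle
    _ = 36 * (u1 * u2 * N ^ 2) := by ring

/-! ## the Katz-Tao constant -/

theorem wg_le_one {M : ℕ} {θ ρ1 ρ2 ρ3 : ℝ} {s : Fin 2 → ℝ} {z : AN.E3} (h1 : 0 < ρ1) (h2 : 0 < ρ2) (h3 : 0 < ρ3) :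
    wg M θ ρ1 ρ2 ρ3 s z ≤ 1 := by
  unfold wg
  rw [← ENNReal.ofReal_one]
  apply ENNReal.ofReal_le_ofReal
  apply inv_le_one_of_one_le₀
  apply one_le_pow₀
  have : 0 ≤ gau θ ρ1 ρ2 ρ3 s z := by
    unfold gau
    positivity
  linarith

theorem memLp_two {g : AN.E3 → ℂ} {B : ℝ} (hi : Integrable g) (hB : ∀ ξ, ‖g ξ‖ ≤ B) : MemLp g 2 := by
  rw [memLp_two_iff_integrable_sq_norm hi.aestronglyMeasurable]
  refine Integrable.mono' (hi.norm.const_mul B) (hi.aestronglyMeasurable.norm.pow 2) ?_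
  filter_upwards with ξ
  rw [Real.norm_of_nonneg (by positivity), sq]
  exact mul_le_mul_of_nonneg_right (hB ξ) (norm_nonneg _)

/-- Plancherel for the inverse Fourier transform -/
theorem planch_inv {g : AN.E3 → ℂ} (hi : Integrable g) (h2 : MemLp g 2) :
    ∫⁻ x, ‖𝓕⁻ g x‖ₑ ^ 2 = ∫⁻ ξ, ‖g ξ‖ₑ ^ 2 := by
  rw [← FI.planch g hi h2]
  refine lintegral_congr fun x => ?_
  rw [FI.inv_eq_int]

theorem lintegral_sq_le {g : AN.E3 → ℂ} {B : ℝ} {S : Set AN.E3} (hB : ∀ ξ, ‖g ξ‖ ≤ B) (hS : ∀ ξ, g ξ ≠ 0 → ξ ∈ S) :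
    ∫⁻ ξ, ‖g ξ‖ₑ ^ 2 ≤ ENNReal.ofReal (B ^ 2) * volume S := by
  have hB0 : 0 ≤ B := (norm_nonneg _).trans (hB 0)
  calc ∫⁻ ξ, ‖g ξ‖ₑ ^ 2 ≤ ∫⁻ ξ, (toMeasurable volume S).indicator (fun _ => ENNReal.ofReal (B ^ 2)) ξ := by
        refine lintegral_mono fun ξ => ?_
        by_cases h : g ξ = 0
        · rw [h]
          simp
        · rw [indicator_of_mem (subset_toMeasurable _ _ (hS ξ h)), ← ofReal_norm, ← ENNReal.ofReal_pow (norm_nonneg _)]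
          exact ENNReal.ofReal_le_ofReal (pow_le_pow_left₀ (norm_nonneg _) (hB ξ) 2)
    _ = ENNReal.ofReal (B ^ 2) * volume S := by
        rw [lintegral_indicator_const (measurableSet_toMeasurable _ _), measure_toMeasurable]

/-- energy of one piece -/
theorem piece_energy : ∀ C0 : ℝ, 1 ≤ C0 → ∃ C : ℝ, 1 ≤ C ∧ ∀ (Q : Set (Fin 2 → ℝ)) (h : (Fin 2 → ℝ) → ℝ)
    (v : (Fin 2 → ℝ) → Fin 2 → ℝ) (K n : ℕ) (g : Z2 → AN.E3 → ℂ) (B : ℝ), Srf C0 Q h v → Dat C0 K n Q h v g →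
    (∀ θ ξ, ‖g θ ξ‖ ≤ B) → ∀ θ, ∫⁻ x, ‖𝓕⁻ (g θ) x‖ₑ ^ 2 ≤ ENNReal.ofReal (C * B ^ 2 / (2 ^ (K * n)) ^ 4) := by
  intro C0 hC0
  obtain ⟨C, hC, hvol⟩ := cell_vol C0 hC0
  refine ⟨C, hC, ?_⟩
  intro Q h v K n g B hS hD hB θ
  rw [planch_inv (hD.int θ) (memLp_two (hD.int θ) (hB θ))]
  refine (lintegral_sq_le (hB θ) (S := {ξ : AN.E3 | hz ξ ∈ Q ∧ |ξ 2 - h (hz ξ)| ≤ C0 / (2 ^ (K * n)) ^ 2 ∧
    ∀ k, |v (hz ξ) k - (fun k => (θ k : ℝ) / 2 ^ (K * n)) k| ≤ C0 / 2 ^ (K * n)}) ?_).trans ?_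
  · intro ξ hξ
    refine ⟨hD.dom θ ξ hξ, ?_, hD.slope θ ξ hξ⟩
    have h1 := hD.near θ ξ hξ
    rwa [← pow_mul, show K * n * 2 = 2 * K * n by ring]
  · refine (mul_le_mul_right (hvol Q h v hS (2 ^ (K * n)) (fun k => (θ k : ℝ) / 2 ^ (K * n)) (by positivity)) _).trans ?_
    rw [← ENNReal.ofReal_mul (by positivity)]
    apply ENNReal.ofReal_le_ofReal
    apply le_of_eq
    ring

/-- Katz-Tao constant of bounded pieces -/
theorem ktw_of : ∀ C0 : ℝ, 1 ≤ C0 → ∃ C : ℝ, 1 ≤ C ∧ ∀ (Q : Set (Fin 2 → ℝ)) (h : (Fin 2 → ℝ) → ℝ)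
    (v : (Fin 2 → ℝ) → Fin 2 → ℝ) (K n : ℕ) (g : Z2 → AN.E3 → ℂ) (B : ℝ), Srf C0 Q h v → Dat C0 K n Q h v g →
    (∀ θ ξ, ‖g θ ξ‖ ≤ B) → ∀ M, KTw M K n g (C * B ^ 2 * (2 ^ (8 * K * n))⁻¹) := by
  intro C0 hC0
  obtain ⟨C, hC, hpe⟩ := piece_energy C0 hC0
  refine ⟨36 * C, by linarith, ?_⟩
  intro Q h v K n g B hS hD hB M θ u1 u2 s p U hu1 hu12 hu2 hU
  set N : ℝ := 2 ^ (K * n) with hN
  have hN0 : 0 < N := by positivity
  have hN1 : (1 / 2 : ℝ) ^ (K * n) = 1 / N := by rw [hN, one_div_pow]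
  have hu1' : 0 < u1 := lt_of_lt_of_le (by positivity) hu1
  have hu2' : 0 < u2 := hu1'.trans_le hu12
  have hcard := count N θ u1 u2 s U hN0 (by rw [← hN1]; exact hu1) hu12 hU
  calc ∑ τ ∈ U, ∫⁻ z, ‖𝓕⁻ (g τ) z‖ₑ ^ 2 *
        wg M θ (u2 * 2 ^ (2 * K * n)) (u1 * 2 ^ (2 * K * n)) (2 ^ (2 * K * n)) s (z - p)
      ≤ ∑ τ ∈ U, ENNReal.ofReal (C * B ^ 2 / N ^ 4) := by
        refine Finset.sum_le_sum fun τ _ => ?_
        refine le_trans ?_ (hpe Q h v K n g B hS hD hB τ)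
        refine lintegral_mono fun z => ?_
        calc ‖𝓕⁻ (g τ) z‖ₑ ^ 2 * wg M θ (u2 * 2 ^ (2 * K * n)) (u1 * 2 ^ (2 * K * n)) (2 ^ (2 * K * n)) s (z - p)
            ≤ ‖𝓕⁻ (g τ) z‖ₑ ^ 2 * 1 := mul_le_mul_right (wg_le_one (by positivity) (by positivity) (by positivity)) _
          _ = ‖𝓕⁻ (g τ) z‖ₑ ^ 2 := mul_one _
    _ = ENNReal.ofReal (U.card * (C * B ^ 2 / N ^ 4)) := by
        rw [Finset.sum_const, nsmul_eq_mul, ENNReal.ofReal_mul (by positivity)]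
        simp
    _ ≤ ENNReal.ofReal (36 * C * B ^ 2 * (2 ^ (8 * K * n))⁻¹ * (u1 * u2 * 2 ^ (6 * K * n))) := by
        apply ENNReal.ofReal_le_ofReal
        have e8 : (2:ℝ) ^ (8 * K * n) = N ^ 8 := by rw [hN, ← pow_mul]; ring_nf
        have e6 : (2:ℝ) ^ (6 * K * n) = N ^ 6 := by rw [hN, ← pow_mul]; ring_nf
        rw [e8, e6]
        calc (U.card : ℝ) * (C * B ^ 2 / N ^ 4) ≤ 36 * (u1 * u2 * N ^ 2) * (C * B ^ 2 / N ^ 4) := by gcongr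
          _ = 36 * C * B ^ 2 * (N ^ 8)⁻¹ * (u1 * u2 * N ^ 6) := by
              field_simp

end Vale.Agent.P122.J342
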